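import Vale.Agent.P224.PU.KCoef

/-!
The terms of the Gaussian certificate for `C = 7/5`: families, exponents and the polynomials in
`k` (times `D`).
-/

namespace Vale.Agent.P224.PU.U140

open Vale.Agent.P224.PU

noncomputable section

/-- the common denominator -/
def D : Int := 20971520

/-- the terms -/
def rows : List KT := [
  ⟨⟨0, 0, 0, 0, 0, 0⟩, [15840928, 3791720, -10325420, 35143800, -36310180, 12830672]⟩,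
  ⟨⟨0, 0, 0, 0, 0, 1⟩, [13193740, 3294680, -23069650, 33705580]⟩,
  ⟨⟨0, 0, 0, 0, 2, 0⟩, [0, 3036340, 37649300, -40685640]⟩,
  ⟨⟨0, 0, 0, 1, 0, 0⟩, [86252860, -128129520, 264437060, -213414160, 42993360]⟩,
  ⟨⟨0, 0, 0, 2, 0, 0⟩, [9836560, -3251240, 83083040, -147997780, 63248100]⟩,
  ⟨⟨0, 0, 1, 0, 1, 0⟩, [0, -25032660, 92224460, -63576140, -3615660]⟩,
  ⟨⟨0, 1, 0, 0, 1, 0⟩, [0, -82227920, 9150920, 30062820, 43014180]⟩,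
  ⟨⟨0, 1, 1, 0, 0, 0⟩, [0, 67574440, -171139320, 94459580, 9105300]⟩,
  ⟨⟨0, 2, 0, 0, 0, 0⟩, [0, -7182800, 25964260, -44399640, 36516300, -10898120]⟩,
  ⟨⟨0, 4, 0, 0, 0, 0⟩, [0, 613440, -2928300, 5440140, -4484360, 1359080]⟩,
  ⟨⟨1, 0, 0, 0, 1, 0⟩, [0, 60233580, -59083380, 184279160, 106433420]⟩,
  ⟨⟨1, 0, 0, 1, 1, 0⟩, [0, -45578580, 44494740, 116348840, -124154920]⟩,
  ⟨⟨1, 0, 1, 0, 0, 0⟩, [-113811380, 318155300, -450092220, 395782660, 88282660]⟩,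
  ⟨⟨1, 0, 1, 1, 0, 0⟩, [0, -10209160, -58543780, 139697040, -141531180]⟩,
  ⟨⟨1, 1, 0, 0, 0, 0⟩, [834240, -13216000, 67588920, -184088280, 196071260, -74645740]⟩,
  ⟨⟨1, 1, 0, 0, 2, 0⟩, [0, 65140, -13947820, 10798860]⟩,
  ⟨⟨1, 1, 0, 1, 0, 0⟩, [2486280, -3843740, -18021880, 90248960, -76867300]⟩,
  ⟨⟨1, 1, 0, 2, 0, 0⟩, [1884300, -40413440, 168669020, -262399080, 130203640]⟩,
  ⟨⟨1, 1, 1, 0, 1, 0⟩, [0, 24862000, -52987420, 34515580, -3615660]⟩,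
  ⟨⟨1, 1, 2, 0, 0, 0⟩, [0, -108220, 11441440, -13396820]⟩,
  ⟨⟨1, 2, 0, 0, 1, 0⟩, [0, -3569480, 10796620, -12947380, 5138680]⟩,
  ⟨⟨1, 2, 1, 0, 0, 0⟩, [0, 5605680, -8742680, -7980180, 12527240]⟩,
  ⟨⟨1, 3, 0, 0, 0, 0⟩, [-152520, 516800, -6185160, 18070840, -17400480, 4932340]⟩,
  ⟨⟨1, 5, 0, 0, 0, 0⟩, [-13820, -730400, 3433740, -6488380, 5676700, -1893140]⟩,
  ⟨⟨2, 0, 0, 0, 1, 0⟩, [0, 76723360, -10317600, -161055800, 60316300]⟩,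
  ⟨⟨2, 0, 1, 0, 0, 0⟩, [0, -3294680, 46139300, -101116740]⟩,
  ⟨⟨2, 1, 0, 0, 0, 0⟩, [0, -114513660, 22772820, 84750900, -165102660]⟩,
  ⟨⟨2, 1, 0, 1, 0, 0⟩, [0, 45433080, -137429160, 190181260, -17830220]⟩,
  ⟨⟨3, 0, 0, 0, 0, 0⟩, [13519200, -3770940, 10455260, -36095180, 38342060, -12570660]⟩,
  ⟨⟨3, 0, 0, 0, 0, 1⟩, [13173570, -3072280, -23969970, 13868680]⟩,
  ⟨⟨3, 0, 0, 0, 2, 0⟩, [0, -2867840, 8410660, -5542820]⟩,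
  ⟨⟨3, 0, 0, 1, 0, 0⟩, [-29137600, 128123720, -264963160, 216960760, -48876260]⟩,
  ⟨⟨3, 0, 1, 0, 1, 0⟩, [0, 8709800, -27104920, 11191120, 7204000]⟩,
  ⟨⟨3, 1, 0, 0, 1, 0⟩, [0, -85965580, 172024580, -66638820, -19420180]⟩,
  ⟨⟨3, 1, 1, 0, 0, 0⟩, [0, -66773480, 9721820, 177869980, -120818320]⟩,
  ⟨⟨3, 2, 0, 0, 0, 0⟩, [0, -1261520, -304220, 6270080, -8379460, 3675120]⟩,
  ⟨⟨3, 4, 0, 0, 0, 0⟩, [0, 199640, -907040, 1870460, -1769300, 606240]⟩,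
  ⟨⟨4, 0, 0, 0, 0, 0⟩, [-113811380]⟩,
  ⟨⟨4, 0, 0, 1, 0, 0⟩, [0, 3076160, -35602460, 98047440, -59879360]⟩,
  ⟨⟨5, 0, 0, 0, 1, 0⟩, [0, 230780, -602540, -88319640, 96002500]⟩,
  ⟨⟨5, 0, 1, 0, 0, 0⟩, [0, 3072280, 47939940, -41606040]⟩,
  ⟨⟨5, 1, 0, 0, 0, 0⟩, [-113811380, 105613480]⟩,
  ⟨⟨5, 1, 0, 1, 0, 0⟩, [0, -35210600, 108302720, -97971280, 24879160]⟩]

lemma D_pos : 0 < D := by unfold D; norm_num

/-- the coefficients of all terms of positive degree vanish at both ends -/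
theorem endOk_rows : (rows.all fun x => x.t.deg0 || isN x.t.fam || endOk x) = true := by
  decide +kernel

end

end Vale.Agent.P224.PU.U140
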